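import Crest.Agent.N255.Tr.Cs
import Crest.Agent.N255.En.Vt

/-!
# Row 255 (helper89): translation by an element of `F` on the end structure
-/

set_option autoImplicit false
open Set
open scoped Pointwise

noncomputable section

namespace Crest.Agent.N255.Tr

open Tp Wn En Pt Nv

section act

variable {G X : Type} [Group G] [TopologicalSpace X] [MulAction G X] [ContinuousConstSMul G X] {n : ℕ}

variable (X) in
/-- the homeomorphism `x ↦ f⁻¹ • x`; pulling back along it translates data by `f` -/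
def tf (f : G) : X ≃ₜ X := (Homeomorph.smul f).symm

theorem tf_apply (f : G) (x : X) : fo (tf X f) x = f⁻¹ • x := rfl

theorem fo_tf_symm (f : G) : fo (tf X f).symm = Uc.tr f := rfl

theorem fo_tf (f : G) : fo (tf X f) = Uc.tr f⁻¹ := rfl

theorem bc_tf (k : Type) [CommRing k] (f : G) (c : Ch k n X) :
    bc (tf X f) k c = push k (Uc.tr f) c := rfl

theorem pre_tf (f : G) (U : Set X) : fo (tf X f) ⁻¹' U = f • U :=
  Set.ext fun _ => mem_smul_set_iff_inv_smul_mem.symm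

/-- the value of a translated function on a translated simplex -/
theorem pl_tf_tr {B : Type} (f : G) (a : Sx n X → B) (σ : Sx n X) :
    pl (fo (tf X f)) a ((Uc.tr f).comp σ) = a σ := congrArg a (fo_comp_symm (tf X f) σ)

theorem pl_tf_eq {B : Type} (f : G) {a b : Sx n X → B} (h : ∀ σ, b ((Uc.tr f).comp σ) = a σ) :
    pl (fo (tf X f)) a = b :=
  funext <| (forall_sx (tf X f).symm).1 fun σ => (pl_tf_tr f a σ).trans (h σ).symm

theorem cm_tf_eq (f : G) {P Q : Tp.Sb X} (h : ∀ n σ, (Uc.tr f).comp σ ∈ Q.S n ↔ σ ∈ P.S n) :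
    cm (fo (tf X f)) P = Q :=
  sb_ext fun n => (forall_sx (tf X f).symm).1 fun σ => by
    rw [mem_cm, fo_comp_symm]; exact (h n σ).symm

theorem cv_tf {𝒰 : Set (Set X)} (h : ∀ f : G, ∀ U ∈ 𝒰, f • U ∈ 𝒰) (f : G) : Cv (fo (tf X f)) 𝒰 𝒰 :=
  ⟨fun U hU => ⟨f⁻¹ • U, h _ U hU, by rw [pre_tf, smul_inv_smul]⟩,
    fun V hV => ⟨f • V, h _ V hV, (pre_tf f V).subset⟩⟩

theorem or_tf {k : Type} [CommRing k] {d : ℕ} {O : Ori k d X}
    (h : ∀ (f : G) K z, IsCompact K → O.Fund K z → O.Fund (f • K) (push k (Uc.tr f) z)) (f : G) :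
    OR (tf X f) O O := fun K z hK hz => h f⁻¹ K z hK hz

end act

variable {ι S : Type} [DecidableEq ι] [MulAction (FreeGroup ι) S] {w : Wl ι S}
  {F : Subgroup (FreeGroup ι)} {X : Type} [TopologicalSpace X] [MulAction F X]
  [ContinuousConstSMul F X] (N : Lev w F X) (f : F) (e : Ed ι) {n : ℕ} {a b R : ℝ}

theorem s_tf : (N.s e).comp (fo (tf X f)) = N.s (f.1 • e) := by
  ext x
  rw [ContinuousMap.comp_apply, tf_apply, ← N.s_smul f, smul_inv_smul]

theorem r_tf : N.r.comp (fo (tf X f)) = N.r := by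
  ext x; exact N.r_smul _ x

theorem cvN : Cv (fo (tf X f)) N.cv N.cv := cv_tf N.cv_smul f

theorem lo_tf : fo (tf X f) ⁻¹' lo (N.s e) a = lo (N.s (f.1 • e)) a := by rw [← lo_comp, s_tf]

theorem hi_tf : fo (tf X f) ⁻¹' hi (N.s e) a = hi (N.s (f.1 • e)) a := by rw [← hi_comp, s_tf]

theorem win_tf : fo (tf X f) ⁻¹' win (N.s e) a b = win (N.s (f.1 • e)) a b := by
  rw [← win_comp, s_tf]

theorem fw_tf : fo (tf X f) ⁻¹' fw (N.s e) N.r a b R = fw (N.s (f.1 • e)) N.r a b R := by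
  rw [← fw_comp, s_tf, r_tf]

theorem far_tf : fo (tf X f) ⁻¹' hi N.r R = hi N.r R := by rw [← hi_comp, r_tf]

theorem lev_tf (I : Set ℝ) : fo (tf X f) ⁻¹' (N.s e ⁻¹' I) = N.s (f.1 • e) ⁻¹' I := by
  rw [← s_tf]; rfl

theorem Sm_tf : cm (fo (tf X f)) (Sm N.cv) = Sm N.cv := (cvN N f).cm

theorem Sb_tf (U : Set X) : cm (fo (tf X f)) (N.Sb U) = N.Sb (fo (tf X f) ⁻¹' U) := (cvN N f).sb U

theorem Lb_tf : cm (fo (tf X f)) (N.Lb R (w.T e)) = N.Lb R (w.T (f.1 • e)) :=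
  cm_tf_eq f fun _ _ => Lev.Lb_tr f

variable (M : Md w)

theorem mz_tf : pl (fo (tf X f)) (N.mz M R e) = N.mz M R (f.1 • e) := pl_tf_eq f (Lev.mz_tr f)

theorem mz_tf' : pl (fo (tf X f)) (N.mz M R (Lv.rev e)) = N.mz M R (Lv.rev (f.1 • e)) := by
  rw [mz_tf, Lv.rev_smul]

variable {k : Type} [Field k]

theorem mc_tf : pl (fo (tf X f)) (mc k N M e) = mc k N M (f.1 • e) :=
  pl_tf_eq f fun σ => by
    simp only [mc, rs, t1, Lev.vl_tr, M.mer_smul]

theorem wr_tf {d : ℕ} {O : Ori k (d + 1) X} (hO : OR (tf X f) O O) {y : Ch k (d + 1) X}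
    (h : Wr O N.cv (N.s e) N.r a b R y) :
    Wr O N.cv (N.s (f.1 • e)) N.r a b R (bc (tf X f) k y) := by
  have := wr_bc hO (cvN N f) h
  rwa [s_tf, r_tf] at this

theorem Lb_bc {τ : Ch k n X} (h : τ ∈ (N.Lb R (w.T e)).ch k n) :
    bc (tf X f) k τ ∈ (N.Lb R (w.T (f.1 • e))).ch k n := Lb_tf N f e ▸ (ch_iff _).2 h

theorem to_ext {K Y : Type} [CommRing K] [TopologicalSpace Y] {T T' : Cs.To K Y} (h1 : T.P = T'.P)
    (h2 : T.t = T'.t) (h3 : T.al = T'.al) (h4 : T.be = T'.be) : T = T' := by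
  cases T; cases T'; cases h1; cases h2; cases h3; cases h4; rfl

theorem tor_tf (τ : Ch k 2 X) (h hc h' hc') :
    tor (tf X f) (N.tor M R e τ h hc) = N.tor M R (f.1 • e) (bc (tf X f) k τ) h' hc' :=
  to_ext (Lb_tf N f e) rfl (mz_tf N f e M) (mz_tf' N f e M)

theorem geo_or {F : Subgroup Ma.F3} {S X : Type} [MulAction Ma.F3 S] [TopologicalSpace X]
    [MulAction F X] [ContinuousConstSMul F X] (g : Ma.Geo F k S X) (f : F) : OR (tf X f) g.O g.O :=
  or_tf g.ori f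

end Crest.Agent.N255.Tr

end
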