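import Crest.Agent.N255.Ma.Wd
import Crest.Agent.N255.Tr.En

/-!
# Row 255 (helper45): translates and flips of the scalar data of a wall
-/

set_option autoImplicit false
open Set Module

noncomputable section

namespace Crest.Agent.N255.Ma
open Tp Nv Pt Lv En Wn Le Tr

section sets
variable {X Y : Type} [TopologicalSpace X] [TopologicalSpace Y] {s s' : C(X, ℝ)} {l r : ℕ → ℝ}

theorem Bs_comp (f : C(Y, X)) (b : Bool) (m : ℕ) : Bs (s.comp f) l r b m = f ⁻¹' Bs s l r b m := by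
  cases b <;> rfl

theorem As_comp (f : C(Y, X)) (b : Bool) (m : ℕ) : As (s.comp f) l r b m = f ⁻¹' As s l r b m := by
  cases b <;> rfl

theorem zs_comp (f : C(Y, X)) (n i : ℕ) : zs (s.comp f) l r n i = pr f (zs s l r n i) := by
  ext U
  constructor
  · rintro (rfl | ⟨z, h1, h2, rfl | rfl⟩)
    exacts [⟨_, .inl rfl, rfl⟩, ⟨_, .inr ⟨z, h1, h2, .inl rfl⟩, rfl⟩,
      ⟨_, .inr ⟨z, h1, h2, .inr rfl⟩, rfl⟩]
  · rintro ⟨V, rfl | ⟨z, h1, h2, rfl | rfl⟩, rfl⟩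
    exacts [.inl rfl, .inr ⟨z, h1, h2, .inl rfl⟩, .inr ⟨z, h1, h2, .inr rfl⟩]

theorem Bs_flip (hs : ∀ x, s' x = 1 - s x) (b : Bool) (m : ℕ) :
    Bs s' (fun m => 1 - r m) (fun m => 1 - l m) b m = Bs s l r (!b) m := by
  cases b
  exacts [Wv.hi_rev hs _, Wv.lo_rev hs _]

theorem As_flip (hs : ∀ x, s' x = 1 - s x) (b : Bool) (m : ℕ) :
    As s' (fun m => 1 - r m) (fun m => 1 - l m) b m = As s l r (!b) m := by
  cases b
  exacts [Wv.hi_rev hs _, Wv.lo_rev hs _]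

theorem win_flip (hs : ∀ x, s' x = 1 - s x) (a b : ℝ) : win s' (1 - b) (1 - a) = win s a b := by
  ext x
  simp only [win, mem_ofPred_eq, hs]
  constructor <;> rintro ⟨h1, h2⟩ <;> constructor <;> linarith

theorem zs_flip (hs : ∀ x, s' x = 1 - s x) (n i : ℕ) :
    zs s' (fun m => 1 - r m) (fun m => 1 - l m) n i = zs s l r n i := by
  simp only [zs, win_flip hs, or_comm]

variable {k J : Type} [Field k] [Fintype J]

/-- transport of the normal forms -/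
theorem Nf.tr (φ : Y ≃ₜ X) {𝒰 : Set (Set Y)} {𝒱 : Set (Set X)} (hc : Cv (fo φ) 𝒰 𝒱)
    {𝒵 : ℕ → Set (Set X)} {n : ℕ} {ct : J → Co k 1 X} {sc : J → ℕ} {H : Co k 2 X →ₗ[k] Co k 1 X}
    {lam : J → Dual k (Co k 2 X)} {E : Submodule k (Co k 2 X)} (h : Nf 𝒱 𝒵 n ct sc H lam E) :
    Nf 𝒰 (fun i => pr (fo φ) (𝒵 i)) n (fun j => pl (fo φ) (ct j)) sc (cj φ H)
      (fun j => dT φ (lam j)) (ms φ E) where
  mem _ := (Cc_univ φ).2 (h.mem _)
  nf := (forall_co φ).1 fun q => by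
    have := (mem_ms φ).2 (h.nf q)
    simp only [cj_pl, dT_pl]
    rwa [pl_sub, pl_sub, pl_sum_smul] at this
  s1 := by
    rintro _ ⟨V, hV, rfl⟩
    refine (forall_co φ).1 fun q hq => (forall_co φ).1 fun θ hθ => ?_
    rw [← hc.vo, cob_pl, ← pl_sub, mem_ms, mem_ms]
    exact h.s1 V hV q ((mem_ms φ).1 hq) θ ((Cc_univ φ).1 hθ)
  fl i h1 h2 := by
    rw [← hc.vs, ← hc.vs]
    exact cj_mem φ (h.fl i h1 h2)
  lam0 i j h1 h2 q hq := h.lam0 i j h1 h2 _ ((mem_ms' φ).1 (hc.vs (K := k) (𝒵 i) ▸ hq))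
  low := by rw [← hc.vs]; exact ms_mono φ h.low
  zero q hq := by
    rw [cj_apply, h.zero _ ((mem_ms' φ).1 (hc.vs (K := k) (𝒵 0) ▸ hq))]; rfl
  fl2 i h1 q hq := by
    have := h.fl2 i h1 _ ((mem_ms' φ).1 (hc.vs (K := k) (𝒵 i) ▸ hq))
    exact ⟨hc.vs (K := k) (𝒵 (i + 1)) ▸ (mem_ms φ).2 this.1, this.2⟩

end sets

section bz
variable {ι S : Type} [DecidableEq ι] [MulAction (FreeGroup ι) S] {w : Wl ι S}
  {F : Subgroup (FreeGroup ι)} {X : Type} [TopologicalSpace X] [MulAction F X]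
  [ContinuousConstSMul F X] {k : Type} [Field k] (M : Md w) (f : F) (e : Ed ι) {t R : ℝ}

theorem Xe_tf (N : Lev w F X) :
    pl (fo (tf X f)) (Or.Xe N M k e R) = Or.Xe N M k (f.1 • e) R := by
  rw [Or.Xe, Or.Xe, ← res_pl, cm_On, far_tf]
  exact congrArg _ (pl_tf_eq f fun σ => congrFun (Or.pull_al (N := N) (M := M) (k := k) f) σ)

variable {M e}

/-- transport of the data of block B0 -/
theorem bz_tf {E : End w F k X} {η h : Co k 1 X} (b : Or.Bz M E e t R η h) :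
    Or.Bz M E (f.1 • e) t R (pl (fo (tf X f)) η) (pl (fo (tf X f)) h) where
  cc := (Cc_univ _).2 b.cc
  cl := by
    rw [← Xe_tf, ← pl_sub, ← lo_tf E.toLev, ← Sb_tf]; exact pl_Z b.cl
  hZ := by rw [← lo_tf E.toLev]; exact (on_Z _).2 b.hZ
  sm := by
    rw [← Xe_tf, ← pl_sub, ← pl_sub, ← Sm_tf E.toLev f]; exact pl_van b.sm
  spL a a' h1 h2 h3 h4 := by
    have := ms_mono (tf X f) (b.spL a a' h1 h2 h3 h4)
    rwa [ms_sup, ms_sup, ms_Z, ms_ZP, ms_Ex, ms_span_one, cm_On, cm_On, lo_tf E.toLev,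
      lo_tf E.toLev] at this
  spR a a' h1 h2 h3 := by
    have := ms_mono (tf X f) (b.spR a a' h1 h2 h3)
    rwa [ms_sup, ms_Z, ms_ZP, ms_Ex, cm_On, cm_On, hi_tf E.toLev, hi_tf E.toLev] at this

end bz

theorem me_smul {ι : Type} [DecidableEq ι] (f : FreeGroup ι) (e : Ed ι) (o : Bool) :
    f • me e o = me (f • e) o := by
  cases o
  exacts [(rev_smul f e).symm, rfl]

theorem me_rev {ι : Type} (e : Ed ι) (o : Bool) : me (rev e) (!o) = me e o := by
  cases o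
  exacts [rfl, rev_rev e]

theorem me_me {ι : Type} (e : Ed ι) (o : Bool) : me (me e o) o = e := by
  cases o
  exacts [rev_rev e, rfl]

theorem me_eq {ι : Type} {e e' : Ed ι} {o o' : Bool} (h : me e o = me e' o') :
    (e' = e ∧ o' = o) ∨ (e' = rev e ∧ o' = !o) := by
  cases o <;> cases o'
  · exact .inl ⟨by simpa [rev_rev] using (congrArg rev h).symm, rfl⟩
  · exact .inr ⟨h.symm, rfl⟩
  · exact .inr ⟨by rw [show e = rev e' from h, rev_rev], rfl⟩
  · exact .inl ⟨h.symm, rfl⟩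

variable {F : Subgroup F3} {S : Type} [MulAction F3 S] {X : Type} [TopologicalSpace X]
  [MulAction F X] [ContinuousConstSMul F X] {k : Type} [Field k]

namespace Wd
variable {g : Geo F k S X} {u R₀ : ℝ} {n : ℕ} {J : Type} [Fintype J] {τ : Ty J}
  {e e' : Ed (Fin 3)} {o o' : Bool} (ω : Wd g u R₀ n τ e o)

theorem Bs_tf (f : F) (l r : ℕ → ℝ) (c : Bool) (m : ℕ) :
    Bs (g.E.s (f.1 • e)) l r c m = fo (tf X f) ⁻¹' Bs (g.E.s e) l r c m := by
  rw [← Bs_comp, s_tf g.E.toLev]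

theorem As_tf (f : F) (l r : ℕ → ℝ) (c : Bool) (m : ℕ) :
    As (g.E.s (f.1 • e)) l r c m = fo (tf X f) ⁻¹' As (g.E.s e) l r c m := by
  rw [← As_comp, s_tf g.E.toLev]

/-- the translate by `f` -/
def map (f : F) : Wd g u R₀ n τ (f.1 • e) o where
  l := ω.l
  r := ω.r
  a := ω.a
  b := ω.b
  u0 := ω.u0
  big := ω.big
  ua := ω.ua
  al := ω.al
  rb := ω.rb
  bu := ω.bu
  win := s_tf g.E.toLev f e ▸ win_cm (tf X f) ω.win
  h j := pl (fo (tf X f)) (ω.h j)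
  sc_lt := ω.sc_lt
  mem j := by rw [Bs_tf]; exact (ZP_iff _).2 (ω.mem j)
  van j m hm := by rw [As_tf]; exact (on_van _).2 (ω.van j m hm)
  span c m hm := (forall_co (tf X f)).1 fun q hq => by
    rw [Bs_tf, ZP_iff] at hq
    obtain ⟨x, h1, h2⟩ := ω.span c m hm q hq
    refine ⟨x, h1, ?_⟩
    rw [Bs_tf, ← pl_sum_smul, ← pl_sub]
    exact pl_BP _ h2
  η := pl (fo (tf X f)) ω.η
  hw := pl (fo (tf X f)) ω.hw
  bz := by rw [← me_smul, rev_smul]; exact bz_tf f ω.bz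
  H := cj (tf X f) ω.H
  lam j := dT (tf X f) (ω.lam j)
  E := ms (tf X f) ω.E
  nf := by
    have := ω.nf.tr (tf X f) (cvN g.E.toLev f)
    simp only [← zs_comp, ← ct_pl, ← Bs_comp, s_tf g.E.toLev] at this
    exact this

theorem rel_map (f : F) : Rel f ω (ω.map f) where
  ed := me_smul _ _ _
  l := rfl
  r := rfl
  h _ := pl_pl' (tf X f) _
  η := pl_pl' (tf X f) _
  H _ := pl_pl' (tf X f) _
  lam _ _ := rfl

omit [Fintype J] in
theorem kd_flip (j : J) (o : Bool) : (!(τ.kd j == !o)) = (τ.kd j == o) := by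
  cases τ.kd j <;> cases o <;> rfl

/-- the same wall seen from the other side -/
def rev : Wd g u R₀ n τ (Lv.rev e) (!o) where
  l m := 1 - ω.r m
  r m := 1 - ω.l m
  a := 1 - ω.b
  b := 1 - ω.a
  u0 := ω.u0
  big := ω.big
  ua := by linarith [ω.bu]
  al := by linarith [ω.rb]
  rb := by linarith [ω.al]
  bu := by linarith [ω.ua]
  win := ω.win.rev (g.E.s_rev e)
  h := ω.h
  sc_lt := ω.sc_lt
  mem j := by rw [Bs_flip (g.E.s_rev e), kd_flip]; exact ω.mem j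
  van j m hm := by rw [As_flip (g.E.s_rev e), kd_flip]; exact ω.van j m hm
  span c m hm q hq := by
    rw [Bs_flip (g.E.s_rev e)] at hq ⊢
    obtain ⟨x, h1, h2⟩ := ω.span (!c) m hm q hq
    exact ⟨x, fun j hj => ⟨by rw [← Bool.not_inj_iff, kd_flip, (h1 j hj).1], (h1 j hj).2⟩, h2⟩
  η := ω.η
  hw := ω.hw
  bz := by
    have := ω.bz
    rw [me_rev]
    cases o
    · simpa using this
    · simpa using this
  H := ω.H
  lam := ω.lam
  E := ω.E
  nf := by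
    have := ω.nf
    simp only [Bs_flip (g.E.s_rev e), kd_flip]
    rwa [show zs (g.E.s (Lv.rev e)) (fun m => 1 - ω.r m) (fun m => 1 - ω.l m) n = _ from
      funext (zs_flip (g.E.s_rev e) n)]

theorem rev_lm : ω.rev.lm = ω.lm := funext fun m => by cases o <;> simp [lm, rev]

theorem rev_rm : ω.rev.rm = ω.rm := funext fun m => by cases o <;> simp [rm, rev]

theorem Rel.rev {f : F} {ω : Wd g u R₀ n τ e o} {ω' : Wd g u R₀ n τ e' o'} (h : Rel f ω ω') :
    Rel f ω ω'.rev where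
  ed := h.ed.trans (me_rev _ _).symm
  l := ω'.rev_lm.trans h.l
  r := ω'.rev_rm.trans h.r
  h := h.h
  η := h.η
  H := h.H
  lam := h.lam

/-- **every translate of the wall, from either side, carries the data** -/
theorem exists_rel (f : F) (h : f.1 • me e o = me e' o') :
    ∃ ω' : Wd g u R₀ n τ e' o', Rel f ω ω' := by
  rw [me_smul] at h
  obtain ⟨rfl, rfl⟩ | ⟨rfl, rfl⟩ := me_eq h
  exacts [⟨_, ω.rel_map f⟩, ⟨_, (ω.rel_map f).rev⟩]

end Wd

open _root_.N255.Core in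
/-- the data at every oriented edge -/
theorem Sys.exists_at {g : Geo F k S X} {ka : Wo F → Bool} {u R₀ : ℝ} {n : ℕ} {J : Wo F → Type}
    [∀ c, Fintype (J c)] {τ : ∀ c, Ty (J c)} (W : Sys g ka u R₀ n τ) (e : Ed (Fin 3)) :
    ∃ (f : F) (ω : Wd g u R₀ n (τ (cl F e)) e (tk ka e)), Wd.Rel f (W.ω (cl F e)) ω := by
  obtain ⟨f, h⟩ := exists_rk ka e
  exact ⟨f, (W.ω (cl F e)).exists_rel f (e' := e) (o' := tk ka e) h⟩

end Crest.Agent.N255.Ma

end
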