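import Crest.Agent.N255.Tr.En
import Crest.Agent.N255.Ma.Wd

/-!
# Row 255 (helper89): related walls have the same family, the same potential and the same `Wall`
-/

set_option autoImplicit false
open Set Module

noncomputable section

namespace Crest.Agent.N255.Tr

open Tp Cs Cs.Tw

variable {p : ℕ} [Fact p.Prime] {K O : Type} [Field K] [CommRing O] [Algebra K O]
  {G : Gr (Gm p) K O} {m : Ideal O} {X Y : Type} [TopologicalSpace X] [TopologicalSpace Y]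
  {n i j : ℕ} (f : C(X, Y))

theorem src_pl {ι : Type} [Fintype ι] (q : ι → Co K n Y) (ε : ι → Tw G) :
    pl f (Lp.src q ε) = Lp.src (fun j => pl f (q j)) ε := rfl

theorem nl_pl (g1 : Cn G Y) (S : Co (Tw G) 2 Y) (g : Cn G Y) :
    pl f (Lp.nl K g1 S g) = Lp.nl K (pl f g1) (pl f S) (pl f g) := rfl

variable {f}

theorem tens_pl {M : Type} [AddCommGroup M] [Module K M] [Module.Finite K M]
    {H' : Co K i Y →ₗ[K] Co K j Y} {H : Co K i X →ₗ[K] Co K j X}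
    (h : ∀ q, pl f (H' q) = H (pl f q)) (a : Co M i Y) :
    pl f (Ku.tens H' a) = Ku.tens H (pl f a) :=
  funext fun σ => Ku.dual_ext fun u => by
    rw [Ku.dual_tens, pl_apply, Ku.dual_tens]
    exact congrFun (h fun x => u (a x)) σ

theorem tev_pl {M : Type} [AddCommGroup M] [Module K M] [Module.Finite K M]
    {l' : Dual K (Co K i Y)} {l : Dual K (Co K i X)} (h : ∀ q, l' q = l (pl f q)) (a : Co M i Y) :
    Ku.tev l' a = Ku.tev l (pl f a) :=
  Ku.dual_ext fun u => by rw [Ku.dual_tev, Ku.dual_tev]; exact h _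

theorem fam_pl [Module.Finite K O] {hm : G.Id m} {H' : Co K 2 Y →ₗ[K] Co K 1 Y}
    {H : Co K 2 X →ₗ[K] Co K 1 X} (h : ∀ q, pl f (H' q) = H (pl f q)) {g1 g : Cn G Y}
    {S : Co (Tw G) 2 Y} (F : Lp.Fam hm H' g1 S g) : Lp.Fam hm H (pl f g1) (pl f S) (pl f g) :=
  ⟨fun _ => F.u1 _, fun _ => F.u _, by rw [dif_pl, F.eq, pl_neg, ← nl_pl, ← tens_pl h]⟩

end Crest.Agent.N255.Tr

namespace Crest.Agent.N255.Ma
open Tp Nv Pt Lv En Wn Le Cs Cs.Tw Tr _root_.N255.Core _root_.N255.Dr _root_.N255.Dr.O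

variable {F : Subgroup F3} {S : Type} [MulAction F3 S] {X : Type} [TopologicalSpace X]
  [MulAction F X] [ContinuousConstSMul F X]

omit [ContinuousConstSMul F X] in
theorem win_rv {w : Wl (Fin 3) S} (N : Lev w F X) (e : Ed (Fin 3)) (a b : ℝ) :
    win (N.s (rev e)) (1 - b) (1 - a) = win (N.s e) a b := by
  rw [win_eq, win_eq, Wn.lo_rev, Wn.hi_rev, inter_comm, sub_sub_cancel, sub_sub_cancel]

theorem s_tr {w : Wl (Fin 3) S} (N : Lev w F X) (f : F) (e : Ed (Fin 3)) :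
    (N.s (f.1 • e)).comp (Uc.tr f) = N.s e := ContinuousMap.ext fun x => N.s_smul f e x

theorem r_tr {w : Wl (Fin 3) S} (N : Lev w F X) (f : F) : N.r.comp (Uc.tr f) = N.r :=
  ContinuousMap.ext fun x => N.r_smul f x

theorem cv_tr {w : Wl (Fin 3) S} (N : Lev w F X) (f : F) : Cv (Uc.tr f) N.cv N.cv := (cvN N f).symm

section sets
variable {Y : Type} [TopologicalSpace Y] (φ : C(X, Y)) (s : C(Y, ℝ)) (l r : ℕ → ℝ)

theorem Bs_pre (c : Bool) (m : ℕ) : φ ⁻¹' Bs s l r c m = Bs (s.comp φ) l r c m := by cases c <;> rfl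

theorem As_pre (c : Bool) (m : ℕ) : φ ⁻¹' As s l r c m = As (s.comp φ) l r c m := by cases c <;> rfl

theorem zs_pre (n i : ℕ) : pr φ (zs s l r n i) = zs (s.comp φ) l r n i := by
  ext U
  constructor
  · rintro ⟨V, rfl | ⟨z, a, b, rfl | rfl⟩, rfl⟩
    exacts [.inl rfl, .inr ⟨z, a, b, .inl rfl⟩, .inr ⟨z, a, b, .inr rfl⟩]
  · rintro (rfl | ⟨z, a, b, rfl | rfl⟩)
    exacts [⟨_, .inl rfl, rfl⟩, ⟨_, .inr ⟨z, a, b, .inl rfl⟩, rfl⟩, ⟨_, .inr ⟨z, a, b, .inr rfl⟩, rfl⟩]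

end sets

namespace Wd

section scalar
variable {k : Type} [Field k] {g : Geo F k S X} {u R₀ : ℝ} {n : ℕ} {J : Type} [Fintype J] {τ : Ty J}
  {e e' e'' : Ed (Fin 3)} {o o' o'' : Bool} (ω : Wd g u R₀ n τ e o)

theorem B_me (c : Bool) (m : ℕ) : ω.B (c == o) m = Bs (g.E.s (me e o)) ω.lm ω.rm c m := by
  cases o
  · cases c
    · exact (Wn.hi_rev g.E.toLev e).trans (by rw [lm, if_neg Bool.false_ne_true, sub_sub_cancel]; rfl)
        |>.symm
    · exact (Wn.lo_rev g.E.toLev e).trans (by rw [rm, if_neg Bool.false_ne_true, sub_sub_cancel]; rfl)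
        |>.symm
  · cases c <;> rfl

theorem A_me (c : Bool) (m : ℕ) : ω.A (c == o) m = As (g.E.s (me e o)) ω.lm ω.rm c m := by
  cases o
  · cases c
    · exact (Wn.hi_rev g.E.toLev e).trans (by rw [rm, if_neg Bool.false_ne_true, sub_sub_cancel]; rfl)
        |>.symm
    · exact (Wn.lo_rev g.E.toLev e).trans (by rw [lm, if_neg Bool.false_ne_true, sub_sub_cancel]; rfl)
        |>.symm
  · cases c <;> rfl

theorem win_me (m m' : ℕ) :
    Wn.win (g.E.s e) (ω.l (if o then m else m')) (ω.r (if o then m' else m)) =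
      Wn.win (g.E.s (me e o)) (ω.lm m) (ω.rm m') := by
  cases o
  · exact (win_rv g.E.toLev e _ _).symm
  · rfl

theorem Z_me (i : ℕ) : ω.Z i = zs (g.E.s (me e o)) ω.lm ω.rm n i := by
  cases o
  · ext U
    simp only [zs, mem_ofPred_eq, me_false, lm, rm, Bool.false_eq_true, if_false, win_rv, or_comm]
  · rfl

variable {ω} {ω' : Wd g u R₀ n τ e' o'} {ω'' : Wd g u R₀ n τ e'' o''} {f f' : F}

namespace Rel

theorem refl (ω : Wd g u R₀ n τ e o) : Rel 1 ω ω := by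
  have e : ∀ {B : Type} {d : ℕ} (a : Sx d X → B), pl (Uc.tr (1 : F)) a = a := fun a =>
    funext fun σ => congrArg a (ContinuousMap.ext fun x => one_smul F (σ x))
  exact ⟨one_smul _ _, rfl, rfl, fun _ => e _, e _, fun q => by rw [e, e], fun j q => by rw [e]⟩

theorem trans (h : Rel f ω ω') (h' : Rel f' ω' ω'') : Rel (f' * f) ω ω'' := by
  have e : ∀ {B : Type} {d : ℕ} (a : Sx d X → B),
      pl (Uc.tr (f' * f)) a = pl (Uc.tr f) (pl (Uc.tr f') a) := fun a => by rw [← Uc.tr_comp]; rfl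
  exact ⟨by rw [← h'.ed, ← h.ed, Subgroup.coe_mul, mul_smul], h'.l.trans h.l, h'.r.trans h.r,
    fun j => by rw [e, h'.h, h.h], by rw [e, h'.η, h.η], fun q => by rw [e, e, h'.H, h.H],
    fun j q => by rw [e, h'.lam, h.lam]⟩

variable (h : Rel f ω ω')
include h

theorem symm : Rel f⁻¹ ω' ω := by
  have e : ∀ {B : Type} {d : ℕ} (a : Sx d X → B), pl (Uc.tr f⁻¹) (pl (Uc.tr f) a) = a :=
    fun a => pl_pl (tf X f) a
  have e' : ∀ {B : Type} {d : ℕ} (a : Sx d X → B), pl (Uc.tr f) (pl (Uc.tr f⁻¹) a) = a :=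
    fun a => pl_pl' (tf X f) a
  exact ⟨by rw [← h.ed, Subgroup.coe_inv, inv_smul_smul], h.l.symm, h.r.symm,
    fun j => by rw [← h.h, e], by rw [← h.η, e], fun q => by rw [← e (ω'.H _), h.H, e'],
    fun j q => by rw [h.lam, e']⟩

theorem s : (g.E.s (me e' o')).comp (Uc.tr f) = g.E.s (me e o) := by rw [← h.ed, s_tr]

theorem B (c : Bool) (m : ℕ) : Uc.tr f ⁻¹' ω'.B (c == o') m = ω.B (c == o) m := by
  rw [B_me, B_me, Bs_pre, h.s, h.l, h.r]

theorem A (c : Bool) (m : ℕ) : Uc.tr f ⁻¹' ω'.A (c == o') m = ω.A (c == o) m := by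
  rw [A_me, A_me, As_pre, h.s, h.l, h.r]

theorem Z (i : ℕ) : pr (Uc.tr f) (ω'.Z i) = ω.Z i := by
  rw [Z_me, Z_me, zs_pre, h.s, h.l, h.r]

theorem mid (m : ℕ) :
    Uc.tr f ⁻¹' Wn.win (g.E.s e') (ω'.l m) (ω'.r m) = Wn.win (g.E.s e) (ω.l m) (ω.r m) := by
  have a := ω.win_me m m
  have b := ω'.win_me m m
  rw [ite_self] at a b
  rw [a, b, ← win_comp, h.s, h.l, h.r]

theorem ct (j : J) : pl (Uc.tr f) (ω'.ct j) = ω.ct j := by
  rw [Wd.ct, Wd.ct, ← ct_pl, h.B, h.h]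

theorem cx : ∀ x, pl (Uc.tr f) (ω'.cx x) = ω.cx x
  | .inl j => h.ct j
  | .inr true => rfl
  | .inr false => congrArg Neg.neg h.η

theorem Hp (q : Co k 2 X) : pl (Uc.tr f) (ω'.Hp q) = ω.Hp (pl (Uc.tr f) q) := by
  simp only [Hp_apply, pl_add, pl_sum_smul, h.H, h.ct, h.lam]

theorem al : pl (Uc.tr f) (g.E.toLev.mz g.M R₀ (me e' o')) = g.E.toLev.mz g.M R₀ (me e o) := by
  rw [← h.ed]; exact funext (Lev.mz_tr f)

theorem be :
    pl (Uc.tr f) (g.E.toLev.mz g.M R₀ (rev (me e' o'))) = g.E.toLev.mz g.M R₀ (rev (me e o)) := by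
  rw [← h.ed, rev_smul]; exact funext (Lev.mz_tr f)

end Rel

variable {R : ℝ} {σ : Ch k 3 X}

theorem sig_wr [T2Space X] :
    Wr g.O g.E.cv (g.E.s e) g.E.r (ω.l n) (ω.r n) R (if o then σ else -σ) ↔
      Wr g.O g.E.cv (g.E.s (me e o)) g.E.r (ω.lm n) (ω.rm n) R σ := by
  cases o
  · refine ⟨fun h => ?_, fun h => ?_⟩
    · simpa only [Bool.false_eq_true, if_false, neg_neg, lm, rm, me_false] using
        wr_rev g.E.cv_open g.E.cv_cover (g.E.s_rev e) h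
    · have := wr_rev g.E.cv_open g.E.cv_cover (s' := g.E.s e) (c := 1)
        (fun x => by rw [me_false, g.E.s_rev, sub_sub_cancel]) h
      simpa only [lm, rm, Bool.false_eq_true, if_false, sub_sub_cancel] using this
  · rfl

/-- the translate of a wall chain is a wall chain -/
theorem Rel.sig [T2Space X] (h : Rel f ω ω') (hs : ω.Sig R σ) : ω'.Sig R (push k (Uc.tr f) σ) where
  wr := by
    rw [sig_wr, h.l, h.r, ← h.ed]
    exact wr_tf g.E.toLev f _ (geo_or g f) (sig_wr.1 hs.wr)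
  sm := ((cvN g.E.toLev f).sm_ch (K := k)).2 hs.sm
  lb := by rw [bd_push, ← h.ed]; exact Lb_bc g.E.toLev f _ hs.lb

theorem Rel.T (h : Rel f ω ω') {R' : ℝ} (hs : ω.Sig R σ) (hs' : ω'.Sig R' (push k (Uc.tr f) σ)) :
    hs'.T = tor (tf X f) hs.T :=
  to_ext ((Lb_tf g.E.toLev f _).trans (by rw [h.ed]; rfl)).symm (bd_push _ σ)
    (pl_tf_eq f (congrFun h.al)).symm (pl_tf_eq f (congrFun h.be)).symm

end scalar

variable {p : ℕ} [Fact p.Prime] {J : Type} [Fintype J] {g : Geo F (ZMod p) S X} {u R₀ : ℝ} {n : ℕ}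
  {τ : Ty J} {e e' : Ed (Fin 3)} {o o' : Bool} {ω : Wd g u R₀ n τ e o} {ω' : Wd g u R₀ n τ e' o'}
  {f : F} {R R' : ℝ} {σ : Ch (ZMod p) 3 X}

namespace Rel
variable (h : Rel f ω ω')
include h

theorem g0 {A : Type} [Ring A] (a b : Aˣ) : pl (Uc.tr f) (ω'.g0 a b) = ω.g0 a b := by
  funext σ
  rw [Wd.g0, ← h.al, ← h.be]; rfl

theorem g1 : pl (Uc.tr f) ω'.g1 = ω.g1 :=
  funext fun σ => Units.ext <| by
    rw [pl_apply, Wd.g1, Wd.g1, Lp.val_pl, Lp.val_pl, ← h.g0, ← funext h.cx]; rfl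

theorem Sr : pl (Uc.tr f) ω'.Sr = ω.Sr := by
  rw [Wd.Sr, Wd.Sr, ← funext h.ct]; rfl

/-- **the family of the translate is the translate of the family** -/
theorem gU : pl (Uc.tr f) ω'.gU = ω.gU :=
  ω.fam.uniq Tg.mx_nil (h.g1 ▸ h.Sr ▸ fam_pl h.Hp ω'.fam)

theorem gU' : ω'.gU = pl (fo (tf X f)) ω.gU := (pl_tf_eq f (congrFun h.gU)).symm

theorem far' (hf : ω'.Far R) : ω.Far R :=
  ⟨hf.1, fun σ hσ => by
    rw [← h.gU, ← h.g0]; exact hf.2 _ ((Lev.far_tr f σ).2 hσ)⟩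

theorem far : ω'.Far R ↔ ω.Far R := ⟨h.far', h.symm.far'⟩

/-- **the potential is invariant** -/
theorem W (hs : ω.Sig R σ) (hs' : ω'.Sig R' (push (ZMod p) (Uc.tr f) σ)) : hs'.W = hs.W := by
  rw [Sig.W, Sig.W, h.T hs hs', h.gU']; exact tor_W _ _ _ _ _ _

/-- **the wall is invariant** -/
theorem wall (hs : ω.Sig R σ) (hs' : ω'.Sig R' (push (ZMod p) (Uc.tr f) σ)) {c : ℕ}
    (hc : ∀ j, τ.dp j ≤ c) : hs'.wall hc = hs.wall hc := by
  simp only [Sig.wall, h.W hs hs']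

end Rel

end Wd

end Crest.Agent.N255.Ma

end
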