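import Crest.Agent.N255.Ma.Top2
import Crest.Agent.N255.Tr.Ex
import Crest.Agent.N255.Tr.Rel

/-!
# Row 255 (helper89): transport of walls, `TrS`
-/

set_option autoImplicit false

namespace Crest.Agent.N255.Ma

/-- **walls are transported along the group** -/
theorem trS_holds : TrS := by
  intro F S _ X _ _ _ _ g u R₀ n J _ τ e e' o o' ω f h
  obtain ⟨ω', r⟩ := ω.exists_rel f h
  exact ⟨ω', r, fun R σ hs => ⟨_, r.sig hs, r.W hs _⟩⟩

end Crest.Agent.N255.Ma
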