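import Crest.Agent.N255.Tr.Kit
import Crest.Agent.N255.Ku.CoS
import Crest.Agent.N255.Cs.CapW
import Crest.Agent.N255.Le.Phi
import Crest.Agent.N255.Wv.Var
import Crest.Agent.N255.Wn.B2

/-!
# Row 255 (helper89): transport of connections, caps, parametrices, windows along a homeomorphism
-/

set_option autoImplicit false
open Set

noncomputable section

namespace Crest.Agent.N255.Tr

open Tp Wn Cs Module

variable {X Y : Type} [TopologicalSpace X] [TopologicalSpace Y] {n i j : ℕ}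

section lin

variable {B : Type} (f : C(X, Y))

theorem pl_add [Add B] (a b : Sx n Y → B) : pl f (a + b) = pl f a + pl f b := rfl

theorem pl_sub [Sub B] (a b : Sx n Y → B) : pl f (a - b) = pl f a - pl f b := rfl

theorem pl_neg [Neg B] (a : Sx n Y → B) : pl f (-a) = -pl f a := rfl

theorem pl_zero [Zero B] : pl f (0 : Sx n Y → B) = 0 := rfl

theorem pl_one [One B] : pl f (1 : Sx n Y → B) = 1 := rfl

theorem pl_smul {R : Type*} [SMul R B] (r : R) (a : Sx n Y → B) : pl f (r • a) = r • pl f a := rfl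

theorem pl_sum [AddCommMonoid B] {ι : Type*} (s : Finset ι) (a : ι → Sx n Y → B) :
    pl f (∑ i ∈ s, a i) = ∑ i ∈ s, pl f (a i) := by
  funext σ; simp only [pl, Finset.sum_apply]

theorem pl_sum_smul [AddCommMonoid B] {R : Type*} [SMul R B] {ι : Type*} (s : Finset ι) (x : ι → R)
    (a : ι → Sx n Y → B) : pl f (∑ i ∈ s, x i • a i) = ∑ i ∈ s, x i • pl f (a i) := pl_sum f s _

variable {R : Type} [Ring R]

theorem cur_pl (g : Sx 1 Y → Rˣ) : cur (pl f g) = pl f (cur g) := rfl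

theorem dif_pl (g' g : Sx 1 Y → Rˣ) : dif (pl f g') (pl f g) = pl f (dif g' g) := rfl

theorem gag_pl (γ : Sx 0 Y → Rˣ) (g : Sx 1 Y → Rˣ) : gag (pl f γ) (pl f g) = pl f (gag γ g) := rfl

variable {k : Type} [Field k]

theorem glue_pl (V : Set Y) (a b : Co k i Y) :
    glue (f ⁻¹' V) (pl f a) (pl f b) = pl f (glue V a b) := by
  rw [glue, ← cut_pl]; rfl

theorem ct_pl (V : Set Y) (a : Co k i Y) : Wv.ct (f ⁻¹' V) (pl f a) = pl f (Wv.ct V a) :=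
  glue_pl f V a 0

end lin

section tw

variable {p : ℕ} [Fact p.Prime] {K O : Type} [CommRing K] [CommRing O] [Algebra K O]
  {G : Gr (Gm p) K O} {m I : Ideal O} {P : Sb Y} (f : C(X, Y)) (φ : X ≃ₜ Y)

theorem pl_CI {a : Co (Tw G) n Y} (h : CI P I a) : CI (cm f P) I (pl f a) := fun _ hσ => h _ hσ

theorem pl_CU {hm : G.Id m} {g : Sx n Y → (Tw G)ˣ} (h : CU P hm g) : CU (cm f P) hm (pl f g) :=
  fun _ hσ => h _ hσ

theorem CI_iff {a : Co (Tw G) n Y} : CI (cm (fo φ) P) I (pl (fo φ) a) ↔ CI P I a :=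
  forall_sx φ (p := fun τ => τ ∈ P.S n → In I (a τ))

theorem CU_iff {hm : G.Id m} {g : Sx n Y → (Tw G)ˣ} :
    CU (cm (fo φ) P) hm (pl (fo φ) g) ↔ CU P hm g :=
  forall_sx φ (p := fun τ => τ ∈ P.S n → g τ ∈ Tw.U hm)

/-- the set of the values on a family -/
theorem vals_pl {B C : Type} (a : Sx n Y → B) (u : B → C) :
    {x | ∃ σ ∈ (cm (fo φ) P).S n, x = u (pl (fo φ) a σ)} = {x | ∃ σ ∈ P.S n, x = u (a σ)} :=
  Set.ext fun _ => ⟨fun ⟨_, h, e⟩ => ⟨_, h, e⟩, fun ⟨τ, h, e⟩ =>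
    ⟨(fo φ.symm).comp τ, by rwa [mem_cm, fo_comp_symm], by rwa [pl_apply, fo_comp_symm]⟩⟩

theorem mp_pl {O' : Type} [CommRing O'] [Algebra K O'] {G' : Gr (Gm p) K O'} {ψ : O →ₐ[K] O'}
    (h : G.Hom G' ψ) (g : Sx n Y → (Tw G)ˣ) : Cs.mp h (pl f g) = pl f (Cs.mp h g) := rfl

theorem ev_bc' {A : Type} [AddCommGroup A] [Module K A] (a : Co A n X) (c : Ch K n Y) :
    ev K a (bc φ K c) = ev K (fun τ => a ((fo φ.symm).comp τ)) c := ev_push _ a c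

theorem pl_e2 {B : Type} (a : Sx 1 Y → B) (σ : Sx n X) (x y : Fin (n + 1)) :
    a (e2 (f.comp σ) x y) = pl f a (e2 σ x y) := rfl

theorem pz_bc (α β : Co ℤ 1 Y) (t : Ch K 2 Y) :
    pz (pl (fo φ) α) (pl (fo φ) β) (bc φ K t) = pz α β t :=
  (ev_bc' φ _ t).trans (by simp only [pz, ← pl_e2, fo_comp_symm])

/-- transported torus -/
def tor (T : To K Y) : To K X where
  P := cm (fo φ) T.P
  t := bc φ K T.t
  al := pl (fo φ) T.al
  be := pl (fo φ) T.be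
  ht := (ch_iff φ).2 T.ht
  cy := by rw [bd_bc, T.cy, bc, map_zero]
  ha := pl_Z T.ha
  hb := pl_Z T.hb

variable (T : To K Y)

theorem tor_s : (tor φ T).s = T.s := pz_bc φ _ _ _

theorem tor_g {R : Type} [Ring R] (a b : Rˣ) : (tor φ T).g a b = pl (fo φ) (T.g a b) := rfl

theorem tor_cap (a : (Tw G)ˣ) (w : Tw G) : (tor φ T).cap a w = T.cap a w :=
  (ev_bc' φ _ T.t).trans (by simp only [tor, To.cap, ← pl_e2, fo_comp_symm])

theorem tor_C0 (a b : (Tw G)ˣ) : (tor φ T).C0 a b = T.C0 a b :=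
  (ev_bc' φ _ T.t).trans (by simp only [tor, To.C0, ← pl_e2, fo_comp_symm])

theorem tor_CC (a b : (Tw G)ˣ) : (tor φ T).CC a b = T.CC a b := by
  rw [To.CC, To.CC, tor_C0, tor_cap]

theorem tor_Bc {R : Type} [Ring R] {g : Sx 1 Y → Rˣ} {a b : Rˣ} (h : T.Bc g a b) :
    (tor φ T).Bc (pl (fo φ) g) a b := fun _ he => h _ he

variable [Fact ((p : O) = 0)]

theorem CS_pl (g : Cn G Y) : CS (pl f g) = pl f (CS g) := rfl

theorem PP_pl (g : Cn G Y) : PP (pl f g) = pl f (PP g) := rfl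

theorem BE_pl (g : Cn G Y) (h : Co (Tw G) 1 Y) : BE (pl f g) (pl f h) = pl f (BE g h) := rfl

theorem BK_pl (g' g : Cn G Y) : BK (pl f g') (pl f g) = pl f (BK g' g) := rfl

theorem CS_bc (g : Cn G Y) (c : Ch K 3 Y) : ev K (CS (pl (fo φ) g)) (bc φ K c) = ev K (CS g) c :=
  ev_bc φ (CS g) c

theorem tor_W (σ : Ch K 3 Y) (g : Cn G Y) (a b : (Tw G)ˣ) :
    (tor φ T).W (bc φ K σ) (pl (fo φ) g) a b = T.W σ g a b := by
  rw [To.W, To.W, CS_bc, tor_cap]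

end tw

section field

variable {K : Type} [Field K] {M : Type} [AddCommGroup M] [Module K M] (φ : X ≃ₜ Y)

theorem per_bc (h : Co K i Y) (a : Co M j Y) (y : Ch K n Y) :
    per n (pl (fo φ) h) (pl (fo φ) a) (bc φ K y) = per n h a y := ev_bc φ (cup _ n h a) y

theorem per'_bc (h : Co K i Y) (a : Co M j Y) (y : Ch K n Y) :
    per' n (pl (fo φ) h) (pl (fo φ) a) (bc φ K y) = per' n h a y := ev_bc φ (cup _ n a h) y

theorem tev_dT [Module.Finite K M] (l : Dual K (Co K n Y)) (a : Co M n Y) :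
    Ku.tev (dT φ l) (pl (fo φ) a) = Ku.tev l a :=
  Ku.dual_ext fun u => by
    rw [Ku.dual_tev, Ku.dual_tev]; exact dT_pl φ l fun x => u (a x)

theorem tens_cj [Module.Finite K M] (H : Co K i Y →ₗ[K] Co K j Y) (a : Co M i Y) :
    Ku.tens (cj φ H) (pl (fo φ) a) = pl (fo φ) (Ku.tens H a) :=
  funext fun σ => Ku.dual_ext fun u => by
    rw [Ku.dual_tens, pl_apply, Ku.dual_tens]
    exact congrFun (cj_pl φ H fun x => u (a x)) σ

theorem ov_ms {C : Submodule K (Co K n Y)} {N : Submodule K M} {a : Co M n Y} :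
    Ku.Ov (ms φ C) N (pl (fo φ) a) ↔ Ku.Ov C N a :=
  forall₂_congr fun l _ => mem_ms φ (a := fun x => l (a x))

variable {p : ℕ} [Fact p.Prime] {O : Type} [CommRing O] [Algebra K O] {G : Gr (Gm p) K O}

theorem lc_pl (f : C(X, Y)) (l : Dual K (Tw G)) (a : Co (Tw G) n Y) :
    Ku.lc l (pl f a) = pl f (Ku.lc l a) := rfl

theorem Nl_pl (f : C(X, Y)) (g g' : Cn G Y) :
    (Ku.sD X).Nl (pl f g) (pl f g') = pl f ((Ku.sD Y).Nl g g') := rfl

theorem kc_cj [Module.Finite K O] {H : Co K 2 Y →ₗ[K] Co K 1 Y} {g g' : Cn G Y}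
    (h : (Ku.sD Y).Kc H g g') : (Ku.sD X).Kc (cj φ H) (pl (fo φ) g) (pl (fo φ) g') := fun e => by
  rw [Nl_pl, tens_cj]; exact h _

/-! ### normal forms -/

variable {𝒰 : Set (Set X)} {𝒱 : Set (Set Y)} {φ}

/-- preimages of a family of sets -/
def pr (f : C(X, Y)) (𝒵 : Set (Set Y)) : Set (Set X) := (f ⁻¹' ·) '' 𝒵

theorem cv_pr (f : C(X, Y)) (𝒵 : Set (Set Y)) : Cv f (pr f 𝒵) 𝒵 :=
  ⟨by rintro _ ⟨V, hV, rfl⟩; exact ⟨V, hV, subset_rfl⟩, fun V hV => ⟨_, ⟨V, hV, rfl⟩, subset_rfl⟩⟩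

theorem sUnion_pr (f : C(X, Y)) (𝒵 : Set (Set Y)) : ⋃₀ pr f 𝒵 = f ⁻¹' ⋃₀ 𝒵 := by
  rw [pr, sUnion_image, preimage_sUnion]

theorem pr_image {ι : Type*} (f : C(X, Y)) (Z : ι → Set Y) (T : Set ι) :
    pr f (Z '' T) = (fun i => f ⁻¹' Z i) '' T := image_image _ _ _

theorem Cv.sb {f : C(X, Y)} (h : Cv f 𝒰 𝒱) (U : Set Y) : Tr.cm f (SB 𝒱 U) = SB 𝒰 (f ⁻¹' U) := by
  rw [cm_inf, cm_On, h.cm]

theorem Cv.vo (h : Cv (fo φ) 𝒰 𝒱) (U : Set Y) :
    ms φ (Le.vo K 𝒱 U n) = Le.vo K 𝒰 (fo φ ⁻¹' U) n := by rw [ms_van, h.sb]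

theorem Cv.vs (h : Cv (fo φ) 𝒰 𝒱) (𝒵 : Set (Set Y)) :
    ms φ (Le.vs K 𝒱 𝒵 n) = Le.vs K 𝒰 (pr (fo φ) 𝒵) n := by
  rw [ms_van, cm_inf, h.cm, (cv_pr _ 𝒵).cm]

theorem Cv.sm_ch (h : Cv (fo φ) 𝒰 𝒱) {c : Ch K n Y} :
    bc φ K c ∈ (Sm 𝒰).ch K n ↔ c ∈ (Sm 𝒱).ch K n := h.cm ▸ ch_iff φ

variable (φ)

theorem ms_CC : ms φ (Le.CC K Y n) = Le.CC K X n := ms_Cc φ

variable {P : Co K 2 Y →ₗ[K] Co K 2 Y} {E A : Submodule K (Co K 2 Y)}
  {H : Co K 2 Y →ₗ[K] Co K 1 Y} {Hs C : Submodule K (Co K 1 Y)}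

theorem Pd_cj {J : Type*} [Fintype J] (D : J → Dual K (Co K n Y)) (v : J → Co K n Y) :
    cj φ (Le.Pd D v) = Le.Pd (fun j => dT φ (D j)) fun j => pl (fo φ) (v j) :=
  LinearMap.ext <| (forall_co φ).1 fun a => by
    simp only [cj_pl, Le.Pd_apply, dT_pl, pl_sub, pl_sum_smul]

theorem kp_cj (h : Le.Kp P A) : Le.Kp (cj φ P) (ms φ A) := cj_mem φ h

theorem ms_map_cj (C : Submodule K (Co K 1 Y)) :
    ms φ (C.map (P ∘ₗ cob K)) = (ms φ C).map (cj φ P ∘ₗ cob K) := by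
  rw [ms, ms, ← Submodule.map_comp, ← Submodule.map_comp]
  exact congrArg (C.map ·) (LinearMap.ext fun a => (cj_pl φ P (cob K a)).symm)

theorem st_cj (h : Le.St (cob K) C P E A) :
    Le.St (cob K) (ms φ C) (cj φ P) (ms φ E) (ms φ A) := by
  rw [Le.St, ← ms_map_cj, ← ms_sup, ← ms_inf]; exact ms_mono φ h

theorem par_cj (h : Le.Par (cob K) C P E H) :
    Le.Par (cob K) (ms φ C) (cj φ P) (ms φ E) (cj φ H) where
  mem := (forall_co φ).1 fun a => by rw [cj_pl]; exact (mem_ms φ).2 (h.mem a)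
  nf := (forall_co φ).1 fun a => by
    rw [cj_pl, cob_pl, ← pl_sub, cj_pl]; exact (mem_ms φ).2 (h.nf a)

theorem pj_cj (h : Le.Pj Hs P) : Le.Pj (ms φ Hs) (cj φ P) where
  le := (ms_mono φ h.le).trans (ms_CC φ).le
  sub := (forall_co φ).1 fun a => by
    rw [cj_pl, ← pl_sub, ← ms_cob]; exact (mem_ms φ).2 (h.sub a)
  zero := (forall_co φ).1 fun a ha => by
    rw [cob_pl, cj_pl, h.zero a ((mem_ms φ).1 ha)]; rfl

variable {φ} in
theorem wp_cj (hc : Cv (fo φ) 𝒰 𝒱) {𝒵 : ℕ → Set (Set Y)} (h : Le.Wp 𝒱 𝒵 n Hs P E H) :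
    Le.Wp 𝒰 (fun i => pr (fo φ) (𝒵 i)) n (ms φ Hs) (cj φ P) (ms φ E) (cj φ H) where
  pj := pj_cj φ h.pj
  anti _ _ e := image_mono (h.anti e)
  op := by rintro _ ⟨U, hU, rfl⟩; exact (h.op U hU).preimage φ.continuous
  kp := by rintro _ ⟨U, hU, rfl⟩; rw [← hc.vo]; exact kp_cj φ (h.kp U hU)
  st := by
    rintro _ ⟨U, hU, rfl⟩
    rw [← hc.vo, ← ms_CC φ]; exact st_cj φ (h.st U hU)
  win i hi := by
    rw [sUnion_pr, sUnion_pr, ← ms_ZP, ← ms_BP, ← ms_sup]; exact ms_mono φ (h.win i hi)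
  par := by rw [← ms_CC φ]; exact par_cj φ h.par
  fl i hi := by rw [← hc.vs, ← hc.vs]; exact cj_mem φ (h.fl i hi)

theorem le_zb {U V W : Set Y} (h : ZP K U K n ≤ ZP K V K n ⊔ BP K W K n) :
    ZP K (fo φ ⁻¹' U) K n ≤ ZP K (fo φ ⁻¹' V) K n ⊔ BP K (fo φ ⁻¹' W) K n := by
  rw [← ms_ZP, ← ms_ZP, ← ms_BP, ← ms_sup]; exact ms_mono φ h

theorem win_cm {s : C(Y, ℝ)} {l r : ℕ → ℝ} (h : Wv.Win K i s l r) :
    Wv.Win K i (s.comp (fo φ)) l r :=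
  ⟨h.ml, h.ar, h.lt, fun m a ha b hb => by
    simp only [lo_comp]; exact le_zb φ (h.cl m a ha b hb), fun m a ha b hb => by
    simp only [hi_comp]; exact le_zb φ (h.cr m a ha b hb)⟩

end field

end Crest.Agent.N255.Tr

end
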